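import Vale.Agent.P050.Main

theorem Vale.Agent.Results.P050.LocalThreshold.result :
    ∀ (V X : Type) [Fintype V] [DecidableEq V] [Fintype X] [DecidableEq X] [Nonempty X]
      (H : SimpleGraph V) [DecidableRel H.Adj], H.Colorable 2 →
      ∀ (g : ℕ) (v0 : V) (w : H.Walk v0 v0), w.IsCycle → w.length = 2 * g →
      ∀ (W : X → X → ℝ) (hW : ∀ x y, W x y = W y x) (p a : ℝ), 0 < p → 0 ≤ a →
        (∑ x, ∑ y, W x y = p * (Fintype.card X : ℝ) ^ 2) →
        (∀ x y, |W x y - p| ≤ a * p) →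
        a * H.maxDegree * (g * Real.logb 2 (2 * H.maxDegree) +
          Real.logb 2 (2 * H.edgeFinset.card)) ≤ 1 / 10000 →
        p ^ H.edgeFinset.card ≤ (∑ φ : V → X, ∏ e ∈ H.edgeFinset,
          Sym2.lift ⟨fun u v => W (φ u) (φ v), fun _ _ => hW _ _⟩ e) / Fintype.card (V → X) :=
  fun _ _ _ _ _ _ _ H _ hH _ _ w hw hwl W hW _ _ hp ha hmean hb hsmall =>
    Vale.Agent.P050.local_sidorenko H hH w hw hwl W hW hp ha hmean hb hsmall
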